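/-
Row 210 (S0432), layer FIN, part 1: second difference quotients of a smooth function.
-/
import Mathlib

set_option autoImplicit false

open Set Filter MeasureTheory
open scoped Topology

namespace Claimed.Agent.R210.FIN.Diff

/-- Crude Taylor estimate for the symmetric second difference. -/
theorem fin_second_diff (φ : ℝ → ℝ) (hφ : ContDiff ℝ ((⊤ : ℕ∞) : WithTop ℕ∞) φ) (M : ℝ)
    (hM : ∀ x, |deriv (deriv (deriv φ)) x| ≤ M) (t h : ℝ) (hh : 0 ≤ h) :
    |φ (t + h) + φ (t - h) - 2 * φ t - h ^ 2 * deriv (deriv φ) t| ≤ 2 * M * h ^ 3 := by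
  have hM0 : 0 ≤ M := le_trans (abs_nonneg _) (hM 0)
  have h1 : ContDiff ℝ ((⊤ : ℕ∞) : WithTop ℕ∞) (deriv φ) := (contDiff_infty_iff_deriv.1 hφ).2
  have h2 : ContDiff ℝ ((⊤ : ℕ∞) : WithTop ℕ∞) (deriv (deriv φ)) :=
    (contDiff_infty_iff_deriv.1 h1).2
  have d0 : ∀ x, HasDerivAt φ (deriv φ x) x := fun x =>
    ((contDiff_infty_iff_deriv.1 hφ).1 x).hasDerivAt
  have d1 : ∀ x, HasDerivAt (deriv φ) (deriv (deriv φ) x) x := fun x =>
    ((contDiff_infty_iff_deriv.1 h1).1 x).hasDerivAt
  have d2 : ∀ x, HasDerivAt (deriv (deriv φ)) (deriv (deriv (deriv φ)) x) x := fun x =>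
    ((contDiff_infty_iff_deriv.1 h2).1 x).hasDerivAt
  -- `φ''` is `M`-Lipschitz
  have lip2 : ∀ x y, |deriv (deriv φ) y - deriv (deriv φ) x| ≤ M * |y - x| := by
    intro x y
    have := Convex.norm_image_sub_le_of_norm_hasDerivWithin_le (s := (univ : Set ℝ))
      (f := deriv (deriv φ)) (f' := deriv (deriv (deriv φ))) (C := M) (x := x) (y := y)
      (fun z _ => (d2 z).hasDerivWithinAt) (fun z _ => by simpa using hM z) convex_univ
      (mem_univ _) (mem_univ _)
    simpa using this
  set c := deriv (deriv φ) t with hc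
  -- second remainder
  have b2 : ∀ s ∈ Icc (0 : ℝ) h,
      |deriv (deriv φ) (t + s) + deriv (deriv φ) (t - s) - 2 * c| ≤ 2 * M * h := by
    intro s hs
    have e1 := lip2 t (t + s)
    have e2 := lip2 t (t - s)
    have a1 : |t + s - t| = s := by rw [add_sub_cancel_left]; exact abs_of_nonneg hs.1
    have a2 : |t - s - t| = s := by
      rw [sub_sub_cancel_left, abs_neg]; exact abs_of_nonneg hs.1
    rw [a1] at e1
    rw [a2] at e2
    have e3 : M * s ≤ M * h := mul_le_mul_of_nonneg_left hs.2 hM0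
    have : deriv (deriv φ) (t + s) + deriv (deriv φ) (t - s) - 2 * c
        = (deriv (deriv φ) (t + s) - c) + (deriv (deriv φ) (t - s) - c) := by ring
    rw [this]
    calc _ ≤ |deriv (deriv φ) (t + s) - c| + |deriv (deriv φ) (t - s) - c| := abs_add_le _ _
      _ ≤ M * s + M * s := add_le_add e1 e2
      _ ≤ 2 * M * h := by linarith
  -- first remainder
  have dr1 : ∀ s, HasDerivAt (fun s => deriv φ (t + s) - deriv φ (t - s) - 2 * s * c)
      (deriv (deriv φ) (t + s) + deriv (deriv φ) (t - s) - 2 * c) s := by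
    intro s
    have u1 : HasDerivAt (fun s => deriv φ (t + s)) (deriv (deriv φ) (t + s)) s :=
      (d1 (t + s)).comp_const_add t s
    have u2 : HasDerivAt (fun s => deriv φ (t - s)) (-deriv (deriv φ) (t - s)) s :=
      (d1 (t - s)).comp_const_sub t s
    have u3 : HasDerivAt (fun s : ℝ => 2 * s * c) (2 * c) s := by
      have := ((hasDerivAt_id s).const_mul (2 : ℝ)).mul_const c
      simpa using this
    exact ((u1.sub u2).sub u3).congr_deriv (by ring)
  have b1 : ∀ s ∈ Icc (0 : ℝ) h,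
      |deriv φ (t + s) - deriv φ (t - s) - 2 * s * c| ≤ 2 * M * h * h := by
    intro s hs
    have := Convex.norm_image_sub_le_of_norm_hasDerivWithin_le (s := Icc (0 : ℝ) h)
      (f := fun s => deriv φ (t + s) - deriv φ (t - s) - 2 * s * c)
      (f' := fun s => deriv (deriv φ) (t + s) + deriv (deriv φ) (t - s) - 2 * c)
      (C := 2 * M * h) (x := 0) (y := s)
      (fun z _ => (dr1 z).hasDerivWithinAt) (fun z hz => by simpa using b2 z hz)
      (convex_Icc _ _) ⟨le_rfl, hh⟩ hs
    simp only [add_zero, sub_zero, sub_self, mul_zero, zero_mul, Real.norm_eq_abs] at this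
    refine this.trans ?_
    rw [abs_of_nonneg hs.1]
    exact mul_le_mul_of_nonneg_left hs.2 (by positivity)
  have dr0 : ∀ s, HasDerivAt (fun s => φ (t + s) + φ (t - s) - 2 * φ t - s ^ 2 * c)
      (deriv φ (t + s) - deriv φ (t - s) - 2 * s * c) s := by
    intro s
    have u1 : HasDerivAt (fun s => φ (t + s)) (deriv φ (t + s)) s :=
      (d0 (t + s)).comp_const_add t s
    have u2 : HasDerivAt (fun s => φ (t - s)) (-deriv φ (t - s)) s :=
      (d0 (t - s)).comp_const_sub t s
    have u3 : HasDerivAt (fun s : ℝ => s ^ 2 * c) (2 * s * c) s := by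
      have := ((hasDerivAt_id s).pow 2).mul_const c
      simpa using this
    exact (((u1.add u2).sub_const (2 * φ t)).sub u3).congr_deriv (by ring)
  have := Convex.norm_image_sub_le_of_norm_hasDerivWithin_le (s := Icc (0 : ℝ) h)
      (f := fun s => φ (t + s) + φ (t - s) - 2 * φ t - s ^ 2 * c)
      (f' := fun s => deriv φ (t + s) - deriv φ (t - s) - 2 * s * c)
      (C := 2 * M * h * h) (x := 0) (y := h)
      (fun z _ => (dr0 z).hasDerivWithinAt) (fun z hz => by simpa using b1 z hz)
      (convex_Icc _ _) ⟨le_rfl, hh⟩ ⟨hh, le_rfl⟩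
  simp only [add_zero, sub_zero, Real.norm_eq_abs] at this
  have e0 : φ t + φ t - 2 * φ t - 0 ^ 2 * c = 0 := by ring
  rw [e0, sub_zero, abs_of_nonneg hh] at this
  calc _ ≤ 2 * M * h * h * h := this
    _ = 2 * M * h ^ 3 := by ring

end Claimed.Agent.R210.FIN.Diff
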