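/-
Row 210 (S0432), layer FIN, part 2: a continuous bounded function on the line whose symmetric second
differences are asymptotically bounded by `c * g` satisfies `f'' ≤ c * g` in the sense of distributions on `(0,1)`.
-/
import Claimed.Agent.R210.FIN.Diff

set_option autoImplicit false

open Set Filter MeasureTheory
open scoped Topology

namespace Claimed.Agent.R210.FIN.RealLine

open Claimed.Agent.R210.FIN.Diff

theorem fin_real_step (f g φ : ℝ → ℝ) (c B M : ℝ) (hf : Continuous f)
    (hB : ∀ t, |f t| ≤ B)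
    (hg : Continuous g) (hφ : ContDiff ℝ ((⊤ : ℕ∞) : WithTop ℕ∞) φ) (hφc : HasCompactSupport φ)
    (hsupp : tsupport φ ⊆ Ioo (0 : ℝ) 1) (hφ0 : ∀ t, 0 ≤ φ t)
    (hM : ∀ x, |deriv (deriv (deriv φ)) x| ≤ M)
    (ε h : ℝ) (hh : 0 < h) (hh1 : h ≤ 1)
    (hmargin : ∀ t ∈ tsupport φ, 0 ≤ t - h ∧ t + h ≤ 1)
    (key : ∀ t, 0 ≤ t - h → t + h ≤ 1 →
      f (t - h) + f (t + h) - 2 * f t ≤ (g t + ε) * (h ^ 2 * c)) :
    ∫ t, f t * deriv (deriv φ) t ≤ c * (∫ t, g t * φ t) + ε * (c * ∫ t, φ t) + 6 * B * M * h := by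
  have hB0 : 0 ≤ B := le_trans (abs_nonneg _) (hB 0)
  have hM0 : 0 ≤ M := le_trans (abs_nonneg _) (hM 0)
  have hφcont : Continuous φ := hφ.continuous
  have h1 := (contDiff_infty_iff_deriv.1 hφ).2
  have h2 := (contDiff_infty_iff_deriv.1 h1).2
  have c2 : HasCompactSupport (deriv (deriv φ)) := hφc.deriv.deriv
  have z0 : ∀ t, t ∉ Ioo (0 : ℝ) 1 → φ t = 0 := fun t ht =>
    image_eq_zero_of_notMem_tsupport (fun h => ht (hsupp h))
  have z2 : ∀ t, t ∉ Ioo (0 : ℝ) 1 → deriv (deriv φ) t = 0 := fun t ht =>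
    image_eq_zero_of_notMem_tsupport
      (fun h => ht (hsupp (tsupport_deriv_subset (tsupport_deriv_subset h))))
  -- integrability
  have intA : ∀ h' : ℝ, Integrable (fun t => f (t - h') * φ t) := fun h' =>
    ((hf.comp (continuous_id.sub continuous_const)).mul hφcont).integrable_of_hasCompactSupport
      hφc.mul_left
  have intS : ∀ h' : ℝ, Integrable (fun t => f t * φ (t + h')) := fun h' => by
    have := (intA h').comp_add_right h'
    simpa [add_sub_cancel_right] using this
  have shift : ∀ h' : ℝ, ∫ t, f t * φ (t + h') = ∫ t, f (t - h') * φ t := fun h' => by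
    have := integral_add_right_eq_self (μ := volume) (fun t => f (t - h') * φ t) h'
    simpa [add_sub_cancel_right] using this
  have lin : ∀ (u v w : ℝ → ℝ), Integrable u → Integrable v → Integrable w →
      ∫ t, (u t + v t - 2 * w t) = (∫ t, u t) + (∫ t, v t) - 2 * ∫ t, w t := by
    intro u v w hu hv hw
    have a1 : ∫ t, (u t + v t - 2 * w t) = (∫ t, (u t + v t)) - ∫ t, 2 * w t :=
      integral_sub (hu.add hv) (hw.const_mul 2)
    rw [a1, integral_add hu hv, integral_const_mul]
  have intφ : Integrable φ := hφcont.integrable_of_hasCompactSupport hφc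
  have intg : Integrable (fun t => g t * φ t) :=
    (hg.mul hφcont).integrable_of_hasCompactSupport hφc.mul_left
  have int2 : Integrable (fun t => f t * deriv (deriv φ) t) :=
    (hf.mul h2.continuous).integrable_of_hasCompactSupport c2.mul_left
  -- the discrete integration by parts
  have eD : ∫ t, f t * (φ (t + h) + φ (t - h) - 2 * φ t)
      = ∫ t, (f (t - h) + f (t + h) - 2 * f t) * φ t := by
    have e1 : (fun t => f t * (φ (t + h) + φ (t - h) - 2 * φ t))
        = fun t => (f t * φ (t + h) + f t * φ (t + -h) - 2 * (f t * φ (t + 0))) := by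
      funext t
      rw [add_zero, ← sub_eq_add_neg]
      ring
    have e2 : (fun t => (f (t - h) + f (t + h) - 2 * f t) * φ t)
        = fun t => (f (t - h) * φ t + f (t - -h) * φ t - 2 * (f (t - 0) * φ t)) := by
      funext t
      rw [sub_zero, sub_neg_eq_add]
      ring
    rw [e1, e2, lin _ _ _ (intS h) (intS (-h)) (intS 0), lin _ _ _ (intA h) (intA (-h)) (intA 0),
      shift h, shift (-h), shift 0]
  have intD : Integrable (fun t => f t * (φ (t + h) + φ (t - h) - 2 * φ t)) := by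
    have e1 : (fun t => f t * (φ (t + h) + φ (t - h) - 2 * φ t))
        = fun t => (f t * φ (t + h) + f t * φ (t + -h) - 2 * (f t * φ (t + 0))) := by
      funext t
      rw [add_zero, ← sub_eq_add_neg]
      ring
    rw [e1]
    exact ((intS h).add (intS (-h))).sub ((intS 0).const_mul 2)
  have intDf : Integrable (fun t => (f (t - h) + f (t + h) - 2 * f t) * φ t) := by
    have e2 : (fun t => (f (t - h) + f (t + h) - 2 * f t) * φ t)
        = fun t => (f (t - h) * φ t + f (t - -h) * φ t - 2 * (f (t - 0) * φ t)) := by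
      funext t
      rw [sub_zero, sub_neg_eq_add]
      ring
    rw [e2]
    exact ((intA h).add (intA (-h))).sub ((intA 0).const_mul 2)
  -- pointwise inequality
  have pw : ∀ t, (f (t - h) + f (t + h) - 2 * f t) * φ t ≤ (g t + ε) * (h ^ 2 * c) * φ t := by
    intro t
    by_cases ht : t ∈ tsupport φ
    · exact mul_le_mul_of_nonneg_right (key t (hmargin t ht).1 (hmargin t ht).2) (hφ0 t)
    · simp [image_eq_zero_of_notMem_tsupport ht]
  have eR : (fun t => (g t + ε) * (h ^ 2 * c) * φ t)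
      = fun t => (h ^ 2 * c) * (g t * φ t) + (h ^ 2 * c * ε) * φ t := by
    funext t; ring
  have intR : Integrable (fun t => (g t + ε) * (h ^ 2 * c) * φ t) := by
    rw [eR]; exact (intg.const_mul _).add (intφ.const_mul _)
  have int_le := integral_mono intDf intR pw
  have vR : ∫ t, (g t + ε) * (h ^ 2 * c) * φ t
      = h ^ 2 * c * (∫ t, g t * φ t) + h ^ 2 * c * ε * ∫ t, φ t := by
    rw [eR, integral_add (intg.const_mul _) (intφ.const_mul _), integral_const_mul,
      integral_const_mul]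
  -- the error term
  have errb : ∀ t, |f t * (h ^ 2 * deriv (deriv φ) t - (φ (t + h) + φ (t - h) - 2 * φ t))|
      ≤ B * (2 * M * h ^ 3) := by
    intro t
    rw [abs_mul]
    refine mul_le_mul (hB t) ?_ (abs_nonneg _) hB0
    have := fin_second_diff φ hφ M hM t h hh.le
    rw [abs_sub_comm] at this
    exact this
  have errz : ∀ t, t ∉ Icc (-1 : ℝ) 2 →
      f t * (h ^ 2 * deriv (deriv φ) t - (φ (t + h) + φ (t - h) - 2 * φ t)) = 0 := by
    intro t ht
    have a0 : t ∉ Ioo (0 : ℝ) 1 := fun hx => ht ⟨by linarith [hx.1], by linarith [hx.2]⟩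
    have a1 : t + h ∉ Ioo (0 : ℝ) 1 := fun hx => ht ⟨by linarith [hx.1], by linarith [hx.2]⟩
    have a2 : t - h ∉ Ioo (0 : ℝ) 1 := fun hx => ht ⟨by linarith [hx.1], by linarith [hx.2]⟩
    rw [z0 _ a0, z0 _ a1, z0 _ a2, z2 _ a0]
    ring
  have errI : ∫ t, f t * (h ^ 2 * deriv (deriv φ) t - (φ (t + h) + φ (t - h) - 2 * φ t))
      ≤ B * (2 * M * h ^ 3) * 3 := by
    rw [← setIntegral_eq_integral_of_forall_compl_eq_zero errz]
    have := norm_setIntegral_le_of_norm_le_const (μ := volume) (s := Icc (-1 : ℝ) 2)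
      (f := fun t => f t * (h ^ 2 * deriv (deriv φ) t - (φ (t + h) + φ (t - h) - 2 * φ t)))
      (C := B * (2 * M * h ^ 3)) (by simp) (fun t _ => by simpa using errb t)
    have v : volume.real (Icc (-1 : ℝ) 2) = 3 := by
      rw [Real.volume_real_Icc_of_le (by norm_num)]; norm_num
    rw [v] at this
    exact (le_abs_self _).trans (by simpa using this)
  have split : h ^ 2 * ∫ t, f t * deriv (deriv φ) t
      = (∫ t, f t * (φ (t + h) + φ (t - h) - 2 * φ t))
        + ∫ t, f t * (h ^ 2 * deriv (deriv φ) t - (φ (t + h) + φ (t - h) - 2 * φ t)) := by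
    have intE : Integrable
        (fun t => f t * (h ^ 2 * deriv (deriv φ) t - (φ (t + h) + φ (t - h) - 2 * φ t))) := by
      have : (fun t => f t * (h ^ 2 * deriv (deriv φ) t - (φ (t + h) + φ (t - h) - 2 * φ t)))
          = fun t => h ^ 2 * (f t * deriv (deriv φ) t)
            - f t * (φ (t + h) + φ (t - h) - 2 * φ t) := by
        funext t; ring
      rw [this]
      exact (int2.const_mul _).sub intD
    rw [← integral_const_mul, ← integral_add intD intE]
    congr 1
    funext t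
    ring
  have hh2 : 0 < h ^ 2 := by positivity
  have fin : h ^ 2 * ∫ t, f t * deriv (deriv φ) t
      ≤ h ^ 2 * (c * (∫ t, g t * φ t) + ε * (c * ∫ t, φ t) + 6 * B * M * h) := by
    rw [split, eD]
    calc _ ≤ (h ^ 2 * c * (∫ t, g t * φ t) + h ^ 2 * c * ε * ∫ t, φ t) + B * (2 * M * h ^ 3) * 3 :=
          add_le_add (int_le.trans vR.le) errI
      _ = _ := by ring
  exact le_of_mul_le_mul_left fin hh2

theorem fin_real (f g φ : ℝ → ℝ) (c B : ℝ) (hc : 0 ≤ c) (hf : Continuous f)
    (hB : ∀ t, |f t| ≤ B)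
    (hg : Continuous g) (hφ : ContDiff ℝ ((⊤ : ℕ∞) : WithTop ℕ∞) φ) (hφc : HasCompactSupport φ)
    (hsupp : tsupport φ ⊆ Ioo (0 : ℝ) 1) (hφ0 : ∀ t, 0 ≤ φ t)
    (key : ∀ ε > 0, ∃ h0 > 0, ∀ h, 0 < h → h ≤ h0 → ∀ t, 0 ≤ t - h → t + h ≤ 1 →
      f (t - h) + f (t + h) - 2 * f t ≤ (g t + ε) * (h ^ 2 * c)) :
    ∫ t, f t * deriv (deriv φ) t ≤ c * ∫ t, g t * φ t := by
  have hB0 : 0 ≤ B := le_trans (abs_nonneg _) (hB 0)
  have h1 := (contDiff_infty_iff_deriv.1 hφ).2
  have h2 := (contDiff_infty_iff_deriv.1 h1).2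
  have h3 := (contDiff_infty_iff_deriv.1 h2).2
  have c3 : HasCompactSupport (deriv (deriv (deriv φ))) := hφc.deriv.deriv.deriv
  obtain ⟨M, hM⟩ := h3.continuous.bounded_above_of_compact_support c3
  have hM' : ∀ x, |deriv (deriv (deriv φ)) x| ≤ M := fun x => by simpa using hM x
  have hM0 : 0 ≤ M := le_trans (abs_nonneg _) (hM' 0)
  obtain ⟨δ1, hδ1, hthick⟩ := hφc.isCompact.exists_thickening_subset_open isOpen_Ioo hsupp
  have hP : 0 ≤ ∫ t, φ t := integral_nonneg hφ0
  apply le_of_forall_pos_le_add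
  intro η hη
  set P := ∫ t, φ t with hPdef
  have hcP : 0 ≤ c * P := mul_nonneg hc hP
  obtain ⟨h0, hh0, hk⟩ := key (η / (2 * (c * P + 1))) (by positivity)
  set h := min (min h0 (δ1 / 2)) (min 1 (η / (2 * (6 * B * M + 1)))) with hhdef
  have hBM : 0 ≤ 6 * B * M := by positivity
  have hpos : 0 < h := by
    refine lt_min (lt_min hh0 (by positivity)) (lt_min one_pos (by positivity))
  have l0 : h ≤ h0 := (min_le_left _ _).trans (min_le_left _ _)
  have l1 : h ≤ δ1 / 2 := (min_le_left _ _).trans (min_le_right _ _)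
  have l2 : h ≤ 1 := (min_le_right _ _).trans (min_le_left _ _)
  have l3 : h ≤ η / (2 * (6 * B * M + 1)) := (min_le_right _ _).trans (min_le_right _ _)
  have margin : ∀ t ∈ tsupport φ, 0 ≤ t - h ∧ t + h ≤ 1 := by
    intro t ht
    have hp : t + h ∈ Ioo (0 : ℝ) 1 := hthick (Metric.mem_thickening_iff.2 ⟨t, ht, by
      rw [Real.dist_eq, add_sub_cancel_left, abs_of_pos hpos]; linarith⟩)
    have hm : t - h ∈ Ioo (0 : ℝ) 1 := hthick (Metric.mem_thickening_iff.2 ⟨t, ht, by
      rw [Real.dist_eq, sub_sub_cancel_left, abs_neg, abs_of_pos hpos]; linarith⟩)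
    exact ⟨hm.1.le, hp.2.le⟩
  have := fin_real_step f g φ c B M hf hB hg hφ hφc hsupp hφ0 hM' (η / (2 * (c * P + 1))) h hpos l2
    margin (hk h hpos l0)
  refine this.trans ?_
  have e1 : η / (2 * (c * P + 1)) * (c * P) ≤ η / 2 := by
    rw [div_mul_eq_mul_div, div_le_div_iff₀ (by positivity) (by norm_num)]
    nlinarith
  have e2 : 6 * B * M * h ≤ η / 2 := by
    calc 6 * B * M * h ≤ 6 * B * M * (η / (2 * (6 * B * M + 1))) :=
          mul_le_mul_of_nonneg_left l3 hBM
      _ ≤ η / 2 := by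
          rw [mul_div_assoc', div_le_div_iff₀ (by positivity) (by norm_num)]
          nlinarith
  linarith

end Claimed.Agent.R210.FIN.RealLine
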