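/-
Row 210 (S0432), layer FIN: the three point inequality at midpoints implies the distributional
second derivative bound along EVERY geodesic.
-/
import Claimed.Prelude.Def_0366
import Claimed.Agent.R210.FIN.RealLine

set_option autoImplicit false

open Claims.C0366 Claims.C0366.WeakHessian
open Set Filter MeasureTheory
open scoped ENNReal NNReal Topology

namespace Claimed.Agent.R210.FIN.Main

open Claimed.Agent.R210.FIN.RealLine

variable {X : Type*} [MetricSpace X]

/-- (3P): the three point inequality at midpoints. -/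
def fin_ThreePoint (F G : X → ℝ) : Prop :=
  ∀ (x0 x1 y : X) (l κ : ℝ), 0 < l → dist x0 y = l → dist x1 y = l → dist x0 x1 = 2 * l →
    (∀ z ∈ Metric.ball y (3 * l), G z ≤ κ) → F x0 + F x1 - 2 * F y ≤ κ * l ^ 2

theorem fin_continuous_clampTime : Continuous clampTime := by
  unfold clampTime
  exact Continuous.subtype_mk (by fun_prop) _

theorem fin_continuous_evalReal (σ : Curve X) : Continuous (evalReal σ) :=
  σ.continuous.comp fin_continuous_clampTime

theorem fin_clampTime_of_mem {t : ℝ} (ht : t ∈ Icc (0 : ℝ) 1) : clampTime t = ⟨t, ht⟩ := by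
  apply Subtype.ext
  simp [clampTime, ht.1, ht.2]

theorem fin_dist_evalReal (σ : Curve X) (hσ : IsGeodesic σ) {s t : ℝ}
    (hs : s ∈ Icc (0 : ℝ) 1) (ht : t ∈ Icc (0 : ℝ) 1) :
    dist (evalReal σ s) (evalReal σ t) = |s - t| * dist (σ timeZero) (σ timeOne) := by
  unfold evalReal
  rw [fin_clampTime_of_mem hs, fin_clampTime_of_mem ht]
  exact hσ _ _

/-- Uniform upper semicontinuity of `G` near the compact image of the curve. -/
theorem fin_unif (G : X → ℝ) (hG : Continuous G) (σ : Curve X) (ε : ℝ) (hε : 0 < ε) :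
    ∃ δ > 0, ∀ t : ℝ, ∀ z, dist z (evalReal σ t) < δ → G z ≤ G (evalReal σ t) + ε := by
  have hK : IsCompact (range σ) := isCompact_range σ.continuous
  obtain ⟨δ, hδ, H⟩ := lebesgue_number_lemma_of_metric
    (c := fun x : X => {z | |G z - G x| < ε / 2}) hK
    (fun x => isOpen_lt (by fun_prop) continuous_const)
    (fun y _ => mem_iUnion.2 ⟨y, by simp [hε]⟩)
  refine ⟨δ, hδ, fun t z hz => ?_⟩
  obtain ⟨i, hi⟩ := H (evalReal σ t) ⟨_, rfl⟩
  have h1 : |G z - G i| < ε / 2 := hi (by simpa [Metric.mem_ball] using hz)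
  have h2 : |G (evalReal σ t) - G i| < ε / 2 := hi (Metric.mem_ball_self hδ)
  have h1' := abs_lt.1 h1
  have h2' := abs_lt.1 h2
  linarith [h1'.1, h1'.2, h2'.1, h2'.2]

/-- The pointwise second difference inequality along a geodesic. -/
theorem fin_pointwise (F G : X → ℝ) (h3 : fin_ThreePoint F G) (σ : Curve X) (hσ : IsGeodesic σ)
    (ε δ : ℝ) (hδ : ∀ t : ℝ, ∀ z, dist z (evalReal σ t) < δ → G z ≤ G (evalReal σ t) + ε)
    (t h : ℝ) (hh : 0 < h) (h1 : 0 ≤ t - h) (h2 : t + h ≤ 1)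
    (hsmall : 3 * (h * dist (σ timeZero) (σ timeOne)) ≤ δ) :
    F (evalReal σ (t - h)) + F (evalReal σ (t + h)) - 2 * F (evalReal σ t) ≤
      (G (evalReal σ t) + ε) * (h * dist (σ timeZero) (σ timeOne)) ^ 2 := by
  set ℓ := dist (σ timeZero) (σ timeOne) with hℓ
  have mt : t ∈ Icc (0 : ℝ) 1 := ⟨by linarith, by linarith⟩
  have mp : t + h ∈ Icc (0 : ℝ) 1 := ⟨by linarith, by linarith⟩
  have mm : t - h ∈ Icc (0 : ℝ) 1 := ⟨by linarith, by linarith⟩
  have dp : dist (evalReal σ (t + h)) (evalReal σ t) = h * ℓ := by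
    rw [fin_dist_evalReal σ hσ mp mt, add_sub_cancel_left, abs_of_pos hh]
  have dm : dist (evalReal σ (t - h)) (evalReal σ t) = h * ℓ := by
    rw [fin_dist_evalReal σ hσ mm mt, sub_sub_cancel_left, abs_neg, abs_of_pos hh]
  have dd : dist (evalReal σ (t - h)) (evalReal σ (t + h)) = 2 * (h * ℓ) := by
    rw [fin_dist_evalReal σ hσ mm mp]
    have : t - h - (t + h) = -(2 * h) := by ring
    rw [this, abs_neg, abs_of_pos (by linarith)]
    ring
  have hℓ0 : 0 ≤ ℓ := dist_nonneg
  rcases hℓ0.eq_or_lt with h0 | h0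
  · rw [← h0, mul_zero] at dp dm
    rw [dist_eq_zero.1 dp, dist_eq_zero.1 dm, ← h0]
    apply le_of_eq
    ring
  · refine h3 _ _ _ (h * ℓ) _ (mul_pos hh h0) dm dp dd ?_
    intro z hz
    exact hδ t z (lt_of_lt_of_le (Metric.mem_ball.1 hz) hsmall)

/-- Layer FIN: (3P) implies the conclusion of S0432 along every geodesic. -/
theorem fin_main (F G : X → ℝ) (hFbound : BoundedFunction F) (hFcont : Continuous F)
    (hGcont : Continuous G) (h3 : fin_ThreePoint F G) (σ : Curve X) (hσ : IsGeodesic σ) :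
    CurveSecondDerivativeBound F G σ := by
  intro φ hφ hφc hsupp hφ0
  obtain ⟨B, hB⟩ := hFbound
  set ℓ := dist (σ timeZero) (σ timeOne) with hℓ
  have hℓ0 : 0 ≤ ℓ := dist_nonneg
  have z0 : ∀ t, t ∉ Icc (0 : ℝ) 1 → φ t = 0 := fun t ht =>
    image_eq_zero_of_notMem_tsupport (fun h => ht (Ioo_subset_Icc_self (hsupp h)))
  have z2 : ∀ t, t ∉ Icc (0 : ℝ) 1 → deriv (deriv φ) t = 0 := fun t ht =>
    image_eq_zero_of_notMem_tsupport (fun h => ht (Ioo_subset_Icc_self
      (hsupp (tsupport_deriv_subset (tsupport_deriv_subset h)))))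
  rw [setIntegral_eq_integral_of_forall_compl_eq_zero (fun t ht => by rw [z2 t ht, mul_zero]),
    setIntegral_eq_integral_of_forall_compl_eq_zero (fun t ht => by rw [z0 t ht, mul_zero])]
  refine fin_real (fun t => F (evalReal σ t)) (fun t => G (evalReal σ t)) φ (ℓ ^ 2) B
    (by positivity) (hFcont.comp (fin_continuous_evalReal σ)) (fun t => hB _)
    (hGcont.comp (fin_continuous_evalReal σ)) hφ hφc hsupp hφ0 ?_
  intro ε hε
  obtain ⟨δ, hδ, H⟩ := fin_unif G hGcont σ ε hε
  refine ⟨δ / (3 * ℓ + 1), by positivity, fun h hh hle t h1 h2 => ?_⟩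
  have hsmall : 3 * (h * ℓ) ≤ δ := by
    have : h * (3 * ℓ + 1) ≤ δ := (le_div_iff₀ (by positivity)).1 hle
    nlinarith
  have := fin_pointwise F G h3 σ hσ ε δ H t h hh h1 h2 hsmall
  rw [mul_pow] at this
  exact this

end Claimed.Agent.R210.FIN.Main
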